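import Vale.Agent.P218UG.Beta
import Mathlib.Analysis.Calculus.ContDiff.Convolution
import Mathlib.MeasureTheory.Covering.Vitali

/-! The time average `bbar`: smoothness, the derivative, and measure theory on the time axis. -/

open MeasureTheory Set Filter Topology Metric
open scoped ENNReal NNReal ContDiff Convolution

namespace Vale.Agent.P218UP

open P218UA P218UG

theorem contDiff_k01 : ContDiff ℝ ∞ k01 :=
  expNegInvGlue.contDiff.mul (expNegInvGlue.contDiff.comp (by fun_prop))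

theorem compact_k01 : HasCompactSupport k01 :=
  HasCompactSupport.intro isCompact_Icc fun _ => k01_eq_zero

theorem glue_le (s : ℝ) : expNegInvGlue s ≤ 1 := by
  unfold expNegInvGlue
  split_ifs with h
  · exact zero_le_one
  · exact Real.exp_le_one_iff.2 (neg_nonpos.2 (inv_nonneg.2 (not_le.1 h).le))

theorem k01_le (s : ℝ) : k01 s ≤ 1 :=
  mul_le_one₀ (glue_le _) (expNegInvGlue.nonneg _) (glue_le _)

theorem deriv_k01 {s : ℝ} (hs : s ∉ Icc (0 : ℝ) 1) : deriv k01 s = 0 := by
  have : k01 =ᶠ[𝓝 s] fun _ => 0 := by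
    filter_upwards [isClosed_Icc.isOpen_compl.mem_nhds hs] with y hy using k01_eq_zero hy
  rw [this.deriv_eq, deriv_const]

theorem window {r t s : ℝ} (hs : s ∈ Icc (0 : ℝ) 1) : t - s * r ^ 2 ∈ Icc (t - r ^ 2) t :=
  ⟨by nlinarith [hs.2, sq_nonneg r], by nlinarith [hs.1, sq_nonneg r]⟩

variable {w : ℝ → E3 → ℝ} {I : Set ℝ} {A : ℝ}

/-- near a time whose window lies in `I`, `bbar` is a convolution -/
theorem bbar_conv (hC : Calc) (h : IsARFlow w I A) (z : E3) {r t : ℝ} (hr : 0 < r)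
    (hI : Icc (t - r ^ 2) t ⊆ I) : ∃ g : ℝ → ℝ, Continuous g ∧
      (∀ s ∈ Icc (0 : ℝ) 1, g (t / r ^ 2 - s) = beta (ar (w (t - s * r ^ 2))) z r 10) ∧
      bbar w z r =ᶠ[𝓝 t] fun t' => (k01 ⋆[ContinuousLinearMap.mul ℝ ℝ] g) (t' / r ^ 2) := by
  have h0 : t - r ^ 2 ≤ t := by nlinarith
  obtain ⟨η, hη, h1⟩ := isCompact_Icc.exists_cthickening_subset_open h.isOpen hI
  have h2 : Icc (t - r ^ 2 - η) (t + η) ⊆ I := h.conn.out
    (h1 (mem_cthickening_of_dist_le _ _ _ _ (left_mem_Icc.2 h0) (by simp [abs_of_pos hη])))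
    (h1 (mem_cthickening_of_dist_le _ _ _ _ (right_mem_Icc.2 h0) (by simp [abs_of_pos hη])))
  have h3 : t - r ^ 2 - η ≤ t + η := by linarith
  have key : ∀ t' ∈ Ioo (t - η) (t + η), ∀ s ∈ Icc (0 : ℝ) 1,
      (projIcc _ _ h3 ((t' / r ^ 2 - s) * r ^ 2) : ℝ) = t' - s * r ^ 2 := fun t' ht' s hs => by
    have h4 := window (r := r) (t := t') hs
    rw [sub_mul, div_mul_cancel₀ _ (by positivity), projIcc_of_mem _
      ⟨by linarith [h4.1, ht'.1], by linarith [h4.2, ht'.2]⟩]
  refine ⟨fun σ => beta (ar (w (projIcc _ _ h3 (σ * r ^ 2)))) z r 10,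
    (continuousOn_beta_Icc hC h z hr (by norm_num) h2).comp_continuous (by fun_prop)
      fun σ => Subtype.mem _, fun s hs => by simp only [key t ⟨by linarith, by linarith⟩ s hs], ?_⟩
  filter_upwards [Ioo_mem_nhds (by linarith : t - η < t) (by linarith : t < t + η)] with t' ht'
  rw [convolution_def, bbar]
  refine integral_congr_ae (Eventually.of_forall fun s => ?_)
  by_cases hs : s ∈ Icc (0 : ℝ) 1
  · simp only [ContinuousLinearMap.mul_apply', key t' ht' s hs]
  · simp [k01_eq_zero hs]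

theorem bbar_smooth (hC : Calc) (h : IsARFlow w I A) (z : E3) {r t : ℝ} (hr : 0 < r)
    (hI : Icc (t - r ^ 2) t ⊆ I) : ContDiffAt ℝ ∞ (bbar w z r) t := by
  obtain ⟨g, hg, -, h1⟩ := bbar_conv hC h z hr hI
  exact ((compact_k01.contDiff_convolution_left _ contDiff_k01 hg.locallyIntegrable).comp
    (contDiff_id.div_const _)).contDiffAt.congr_of_eventuallyEq h1

/-- the derivative of `bbar` is bounded by the oscillation of `beta` in the window -/
theorem bbar_deriv (hC : Calc) : ∃ M : ℝ, 0 ≤ M ∧ ∀ w I A, IsARFlow w I A → ∀ (z : E3)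
    (r t D : ℝ), 0 < r → Icc (t - r ^ 2) t ⊆ I → (∀ s ∈ Icc (t - r ^ 2) t,
      |beta (ar (w s)) z r 10 - beta (ar (w t)) z r 10| ≤ D) →
    r ^ 2 * |deriv (bbar w z r) t| ≤ M * D := by
  have hk : ContDiff ℝ 1 k01 := contDiff_k01.of_le (by simp)
  have hc := hk.continuous_deriv le_rfl
  have hi : Integrable (deriv k01) := hc.integrable_of_hasCompactSupport compact_k01.deriv
  refine ⟨∫ s, |deriv k01 s|, integral_nonneg fun _ => abs_nonneg _,
    fun w I A h z r t D hr hI hD => ?_⟩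
  obtain ⟨g, hg, h0, h1⟩ := bbar_conv hC h z hr hI
  have h2 := ((compact_k01.hasDerivAt_convolution_left (ContinuousLinearMap.mul ℝ ℝ) hk
    hg.locallyIntegrable (t / r ^ 2)).comp t
      ((hasDerivAt_id t).div_const (r ^ 2))).congr_of_eventuallyEq h1
  have h3 : ∫ s, deriv k01 s = 0 := integral_eq_zero_of_hasDerivAt_of_integrable
    (fun s => (hk.differentiable one_ne_zero s).hasDerivAt) hi
    (hk.continuous.integrable_of_hasCompactSupport compact_k01)
  have h4 : Integrable fun s => deriv k01 s * g (t / r ^ 2 - s) :=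
    Continuous.integrable_of_hasCompactSupport (by fun_prop) compact_k01.deriv.mul_right
  have h5 : ∫ s, deriv k01 s * g (t / r ^ 2 - s)
      = ∫ s, deriv k01 s * (g (t / r ^ 2 - s) - beta (ar (w t)) z r 10) := by
    simp only [mul_sub]
    rw [integral_sub h4 (hi.mul_const _), integral_mul_const, h3, zero_mul, sub_zero]
  rw [h2.deriv, convolution_def, abs_mul, abs_of_pos (by positivity : 0 < 1 / r ^ 2),
    mul_left_comm, mul_one_div_cancel (by positivity), mul_one, ← integral_mul_const]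
  simp only [ContinuousLinearMap.mul_apply', h5]
  rw [← Real.norm_eq_abs]
  refine norm_integral_le_of_norm_le (hi.abs.mul_const D) (Eventually.of_forall fun s => ?_)
  by_cases hs : s ∈ Icc (0 : ℝ) 1
  · rw [norm_mul, h0 s hs]
    exact mul_le_mul_of_nonneg_left (hD _ (window hs)) (abs_nonneg _)
  · simp [deriv_k01 hs]

theorem ofReal_int_le {α : Type*} [MeasurableSpace α] {μ : Measure α} (f : α → ℝ) :
    ENNReal.ofReal (∫ p, f p ∂μ) ≤ ∫⁻ p, ENNReal.ofReal (f p) ∂μ := by
  by_cases hf : Integrable f μ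
  · rw [integral_eq_lintegral_pos_part_sub_lintegral_neg_part hf]
    exact (ENNReal.ofReal_le_ofReal (sub_le_self _ ENNReal.toReal_nonneg)).trans
      ENNReal.ofReal_toReal_le
  · simp [integral_undef hf]

/-- the measure of the set of loud times -/
theorem loud_le {b : ℝ → ℝ} {S T : Set ℝ} (hS : MeasurableSet S) {δ B r : ℝ} (hδ : 0 ≤ δ)
    (hB : 0 ≤ B) (h : ∀ t ∈ T, 2 * δ ≤ ∫ s, k01 s * b (t - s * r ^ 2))
    (h1 : ∀ t ∈ T, ∀ s ∈ Icc (t - r ^ 2) t, b s ≤ B ∧ (δ < b s → s ∈ S)) :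
    ENNReal.ofReal δ * volume T ≤ ENNReal.ofReal B * volume S := by
  have hm : Measurable fun p : ℝ × ℝ => S.indicator (1 : ℝ → ℝ≥0∞) (p.1 - p.2 * r ^ 2) :=
    (measurable_one.indicator hS).comp (by fun_prop)
  set F : ℝ → ℝ≥0∞ := fun t => ENNReal.ofReal B *
    ∫⁻ s in Icc (0 : ℝ) 1, S.indicator (1 : ℝ → ℝ≥0∞) (t - s * r ^ 2) with hF
  have h2 : T ⊆ {t | ENNReal.ofReal δ ≤ F t} := fun t ht => by
    have a1 : ∫⁻ s, ENNReal.ofReal (k01 s * b (t - s * r ^ 2)) ≤ ENNReal.ofReal δ + F t := by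
      rw [← setLIntegral_eq_of_support_subset (s := Icc 0 1) fun s hs => by
        by_contra h'
        simp [k01_eq_zero h'] at hs]
      refine (setLIntegral_mono' measurableSet_Icc (g := fun s => ENNReal.ofReal δ
        + ENNReal.ofReal B * S.indicator 1 (t - s * r ^ 2)) fun s hs => ?_).trans (le_of_eq ?_)
      · obtain ⟨b1, b2⟩ := h1 t ht _ (window hs)
        have b3 := k01_le s
        have b4 := k01_nonneg s
        rcases le_or_gt (b (t - s * r ^ 2)) δ with b5 | b5
        · exact (ENNReal.ofReal_le_ofReal (by nlinarith)).trans le_self_add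
        · rw [indicator_of_mem (b2 b5), Pi.one_apply, mul_one]
          exact (ENNReal.ofReal_le_ofReal (by nlinarith)).trans le_add_self
      · rw [lintegral_add_left measurable_const, lintegral_const_mul' _ _ ENNReal.ofReal_ne_top]
        simp [hF]
    have a2 := ((ENNReal.ofReal_le_ofReal (h t ht)).trans (ofReal_int_le _)).trans a1
    rwa [two_mul, ENNReal.ofReal_add hδ hδ, ENNReal.add_le_add_iff_left ENNReal.ofReal_ne_top] at a2
  refine (mul_le_mul_right (measure_mono h2) _).trans ((mul_meas_ge_le_lintegral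
    (hm.lintegral_prod_right'.const_mul _) _).trans (le_of_eq ?_))
  rw [lintegral_const_mul' _ _ ENNReal.ofReal_ne_top, lintegral_lintegral_swap hm.aemeasurable]
  simp only [lintegral_sub_right_eq_self (S.indicator (1 : ℝ → ℝ≥0∞)), lintegral_indicator_one hS]
  simp

/-- the covering lemma on the time axis -/
theorem exists_bad (ν : Measure ℝ) (e R : ℝ) : ∃ B : Set ℝ, MeasurableSet B ∧
    ENNReal.ofReal e * volume B ≤ 4 * ν univ ∧ ∀ t s, 0 < s → s ≤ R →
      ENNReal.ofReal (e * s) ≤ ν (Icc (t - s) t) → Icc (t - s) t ⊆ B := by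
  have e1 : ∀ p : ℝ × ℝ, closedBall (p.1 - p.2 / 2) (p.2 / 2) = Icc (p.1 - p.2) p.1 := fun p => by
    rw [Real.closedBall_eq_Icc]; congr 1 <;> ring
  obtain ⟨u, h1, h2, h3⟩ := Vitali.exists_disjoint_subfamily_covering_enlargement_closedBall
    {p : ℝ × ℝ | 0 < p.2 ∧ p.2 ≤ R ∧ ENNReal.ofReal (e * p.2) ≤ ν (Icc (p.1 - p.2) p.1)}
    (fun p => p.1 - p.2 / 2) (fun p => p.2 / 2) (R / 2) (fun p hp => by linarith [hp.2.1]) 4
    (by norm_num)
  have hc : u.Countable := h2.countable_of_nonempty_interior fun p hp =>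
    ⟨_, ball_subset_interior_closedBall (mem_ball_self (half_pos (h1 hp).1))⟩
  refine ⟨⋃ p ∈ u, closedBall (p.1 - p.2 / 2) (4 * (p.2 / 2)),
    MeasurableSet.biUnion hc fun _ _ => measurableSet_closedBall, ?_, fun t s a1 a2 a3 => ?_⟩
  · refine (mul_le_mul_right (measure_biUnion_le _ hc _) _).trans (le_trans ?_
      (mul_le_mul_right (measure_mono (subset_univ
        (⋃ p ∈ u, closedBall (p.1 - p.2 / 2) (p.2 / 2)))) _))
    rw [measure_biUnion hc h2 fun _ _ => measurableSet_closedBall, ← ENNReal.tsum_mul_left,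
      ← ENNReal.tsum_mul_left]
    refine ENNReal.tsum_le_tsum fun p => le_trans (le_of_eq ?_)
      (mul_le_mul_right ((h1 p.2).2.2.trans_eq (congrArg ν (e1 p).symm)) _)
    have := (h1 p.2).1
    rw [Real.volume_closedBall, mul_comm, ← ENNReal.ofReal_mul (by positivity),
      ← ENNReal.ofReal_ofNat, ← ENNReal.ofReal_mul (by positivity)]
    congr 1
    ring
  · obtain ⟨p, hp, a4⟩ := h3 (t, s) ⟨a1, a2, a3⟩
    exact ((e1 (t, s)).symm.subset.trans a4).trans (subset_biUnion_of_mem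
      (u := fun p : ℝ × ℝ => closedBall (p.1 - p.2 / 2) (4 * (p.2 / 2))) hp)

/-- splitting an integral according to the size of the integrand -/
theorem lint_split {J T T' : Set ℝ} (hJ : MeasurableSet J) (hT : T ⊆ J) {f : ℝ → ℝ≥0∞}
    (hf : Measurable f) {c C : ℝ≥0∞} (hC : ∀ t ∈ J, f t ≤ C) (h : ∀ t ∈ T, c < f t → t ∈ T') :
    ∫⁻ t in T, f t ≤ c * volume T + C * volume T' := by
  have key : ∀ (U V : Set ℝ) (a : ℝ≥0∞), MeasurableSet V → U ⊆ V → (∀ t ∈ V, f t ≤ a) →
      ∫⁻ t in U, f t ≤ a * volume U := fun U V a hV hU ha => by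
    rw [← setLIntegral_const]
    exact lintegral_mono_ae (ae_restrict_of_ae_restrict_of_subset hU
      ((ae_restrict_mem hV).mono ha))
  rw [← inter_union_sdiff T {t | f t ≤ c}]
  refine (lintegral_union_le _ _ _).trans (add_le_add ?_ ?_)
  · exact (key _ _ _ (measurableSet_le hf measurable_const) inter_subset_right fun _ h => h).trans
      (mul_le_mul_right (measure_mono subset_union_left) _)
  · exact (key _ _ _ hJ (sdiff_subset.trans hT) hC).trans
      (mul_le_mul_right (measure_mono fun t ht => h t ht.1 (not_le.1 ht.2)) _)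

end Vale.Agent.P218UP
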