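import Vale.Agent.P218UA.Props

/-! The packing lemma: the number of lattice balls whose mass is not concentrated in one small
ball is bounded by a multiple of the total mass. -/

open MeasureTheory Set Filter Topology Metric
open scoped ENNReal NNReal

namespace Vale.Agent.P218UP

open Vale.Agent.P218UA

section general

variable {X : Type*} [PseudoMetricSpace X] [MeasurableSpace X] (α : Measure X)

theorem sum_insert_le {β : Type*} [DecidableEq β] (f : β → ℝ≥0∞) (a : β) (s : Finset β) :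
    ∑ x ∈ insert a s, f x ≤ f a + ∑ x ∈ s, f x := by
  by_cases h : a ∈ s
  · rw [Finset.insert_eq_of_mem h]; exact le_add_self
  · rw [Finset.sum_insert h]

omit [PseudoMetricSpace X] in
theorem min_le_sum (c : ℝ≥0∞) (H : Finset (Set X)) {D : Set X} (hD : D ⊆ ⋃ E ∈ H, E) :
    min (α D) c ≤ ∑ E ∈ H, min (α E) c := by
  by_cases h : ∃ E ∈ H, c ≤ α E
  · obtain ⟨E, hE, hc⟩ := h
    refine (min_le_right _ _).trans (le_trans ?_
      (Finset.single_le_sum (f := fun E => min (α E) c) (fun _ _ => bot_le) hE))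
    exact le_min hc le_rfl
  · push Not at h
    rw [Finset.sum_congr rfl fun E hE => min_eq_left (h E hE).le]
    exact (min_le_left _ _).trans ((measure_mono hD).trans (measure_biUnion_finset_le H _))

omit [PseudoMetricSpace X] in
theorem two_le_sum {c : ℝ≥0∞} (H : Finset (Set X)) {D : Set X} (hD : D ⊆ ⋃ E ∈ H, E)
    (h0 : c + c ≤ α D) (h1 : ∀ E ∈ H, c ≤ α (D \ E)) : c + c ≤ ∑ E ∈ H, min (α E) c := by
  classical
  by_cases h : ∃ E ∈ H, c ≤ α E
  · obtain ⟨E, hE, hc⟩ := h
    rw [← Finset.add_sum_erase H _ hE, min_eq_right hc]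
    have h2 : D \ E ⊆ ⋃ E' ∈ H.erase E, E' := by
      intro x hx
      obtain ⟨E', hE', hx'⟩ := mem_iUnion₂.1 (hD hx.1)
      exact mem_iUnion₂.2 ⟨E', Finset.mem_erase.2 ⟨fun e => hx.2 (e ▸ hx'), hE'⟩, hx'⟩
    have h3 := min_le_sum α c _ h2
    rw [min_eq_right (h1 E hE)] at h3
    gcongr
  · push Not at h
    rw [Finset.sum_congr rfl fun E hE => min_eq_left (h E hE).le]
    exact h0.trans ((measure_mono hD).trans (measure_biUnion_finset_le H _))

theorem exists_cover [OpensMeasurableSpace X] {B : Set X} (hB : MeasurableSet B) (η : ℝ)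
    (t : Finset X) : ∃ H : Finset (Set X), B ∩ ⋃ y ∈ t, ball y η ⊆ ⋃ E ∈ H, E ∧
      (∀ E ∈ H, ∃ y, E ⊆ ball y η) ∧ ∑ E ∈ H, α E ≤ α (B ∩ ⋃ y ∈ t, ball y η) := by
  classical
  induction t using Finset.induction_on with
  | empty => exact ⟨∅, by simp, by simp, by simp⟩
  | insert y t _ ih =>
    obtain ⟨H, h1, h2, h3⟩ := ih
    set U := B ∩ ⋃ y ∈ t, ball y η with hU
    have hUm : MeasurableSet U :=
      hB.inter (t.measurableSet_biUnion fun _ _ => measurableSet_ball)
    have e : B ∩ ⋃ y' ∈ insert y t, ball y' η = U ∪ (B ∩ ball y η) \ U := by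
      rw [union_sdiff_self, Finset.set_biUnion_insert, inter_union_distrib_left, union_comm]
    refine ⟨insert ((B ∩ ball y η) \ U) H, ?_, ?_, ?_⟩
    · rw [e, Finset.set_biUnion_insert, union_comm]
      exact union_subset_union_right _ h1
    · intro E hE
      rcases Finset.mem_insert.1 hE with rfl | hE
      · exact ⟨y, sdiff_subset.trans inter_subset_right⟩
      · exact h2 E hE
    · rw [e, measure_union disjoint_sdiff_right ((hB.inter measurableSet_ball).diff hUm), add_comm]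
      exact (sum_insert_le _ _ _).trans (by gcongr)

/-- the merging argument -/
theorem merge {ι : Type*} (j : ι → ℤ) (z : ι → X) (r : ι → ℝ) {L κ η : ℝ} {c a : ℝ≥0∞}
    {T : Set X} (H₀ : Finset (Set X)) (h1 : T ⊆ ⋃ E ∈ H₀, E) (h2 : ∀ E ∈ H₀, ∃ y, E ⊆ ball y η)
    (h3 : ∑ E ∈ H₀, min (α E) c ≤ a) (G : Finset ι) (hT : ∀ Q ∈ G, ball (z Q) (L * r Q) ⊆ T)
    (hη : ∀ Q ∈ G, η ≤ κ * r Q)
    (hsep : ∀ Q ∈ G, ∀ Q' ∈ G, Q ≠ Q' → j Q ≤ j Q' → (L + 2 * κ) * r Q ≤ κ * r Q' ∨
      (L + 2 * κ) * r Q + L * r Q' ≤ dist (z Q) (z Q'))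
    (hm : ∀ Q ∈ G, ∀ z', c + c ≤ α (ball (z Q) (L * r Q) \ ball z' (κ * r Q))) :
    ∃ H : Finset (Set X), T ⊆ ⋃ E ∈ H, E ∧
      (∀ E ∈ H, (∃ y, E ⊆ ball y η) ∨ ∃ Q ∈ G, E ⊆ ball (z Q) ((L + 2 * κ) * r Q)) ∧
      ∑ E ∈ H, min (α E) c + G.card * c ≤ a := by
  classical
  induction G using Finset.induction_on_max_value j with
  | empty => exact ⟨H₀, h1, fun E hE => Or.inl (h2 E hE), by simpa using h3⟩
  | insert Q G hQ hmax ih =>
    obtain ⟨H, e1, e2, e3⟩ := ih (fun Q' h => hT Q' (Finset.mem_insert_of_mem h))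
      (fun Q' h => hη Q' (Finset.mem_insert_of_mem h))
      (fun Q' h Q'' h' => hsep Q' (Finset.mem_insert_of_mem h) Q'' (Finset.mem_insert_of_mem h'))
      (fun Q' h => hm Q' (Finset.mem_insert_of_mem h))
    have hQm := Finset.mem_insert_self Q G
    set D := ball (z Q) (L * r Q) with hD
    set H₁ := H.filter fun E => (E ∩ D).Nonempty with hH₁
    have hsmall : ∀ E ∈ H₁, ∃ y, E ⊆ ball y (κ * r Q) := by
      intro E hE
      obtain ⟨hE, x, hx, hxD⟩ := Finset.mem_filter.1 hE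
      rcases e2 E hE with ⟨y, hy⟩ | ⟨Q', hQ', hy⟩
      · exact ⟨y, hy.trans (ball_subset_ball (hη Q hQm))⟩
      · rcases hsep Q' (Finset.mem_insert_of_mem hQ') Q hQm (fun e => hQ (e ▸ hQ'))
          (hmax Q' hQ') with h | h
        · exact ⟨_, hy.trans (ball_subset_ball h)⟩
        · have h4 := mem_ball.1 (hy hx)
          have h5 := mem_ball.1 hxD
          have h6 := dist_triangle_left (z Q') (z Q) x
          linarith
    have hcov : D ⊆ ⋃ E ∈ H₁, E := by
      intro x hx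
      obtain ⟨E, hE, hx'⟩ := mem_iUnion₂.1 (e1 (hT Q hQm hx))
      exact mem_iUnion₂.2 ⟨E, Finset.mem_filter.2 ⟨hE, x, hx', hx⟩, hx'⟩
    have h4 : c + c ≤ ∑ E ∈ H₁, min (α E) c := by
      refine two_le_sum α H₁ hcov ((hm Q hQm (z Q)).trans (measure_mono sdiff_subset)) fun E hE => ?_
      obtain ⟨y, hy⟩ := hsmall E hE
      exact le_add_self.trans ((hm Q hQm y).trans (measure_mono (sdiff_subset_sdiff_right hy)))
    refine ⟨insert (⋃ E ∈ H₁, E) (H.filter fun E => ¬(E ∩ D).Nonempty), ?_, ?_, ?_⟩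
    · intro x hx
      obtain ⟨E, hE, hx'⟩ := mem_iUnion₂.1 (e1 hx)
      rw [Finset.set_biUnion_insert]
      by_cases h : (E ∩ D).Nonempty
      · exact Or.inl (mem_iUnion₂.2 ⟨E, Finset.mem_filter.2 ⟨hE, h⟩, hx'⟩)
      · exact Or.inr (mem_iUnion₂.2 ⟨E, Finset.mem_filter.2 ⟨hE, h⟩, hx'⟩)
    · intro E hE
      rcases Finset.mem_insert.1 hE with rfl | hE
      · refine Or.inr ⟨Q, hQm, iUnion₂_subset fun E hE x hx => ?_⟩
        obtain ⟨y, hy⟩ := hsmall E hE
        obtain ⟨_, x', hx', hxD⟩ := Finset.mem_filter.1 hE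
        have h5 := mem_ball.1 (hy hx)
        have h6 := mem_ball.1 (hy hx')
        have h7 := mem_ball.1 hxD
        have h8 := dist_triangle_right x x' y
        have h9 := dist_triangle x x' (z Q)
        rw [mem_ball]
        linarith
      · rcases e2 E (Finset.mem_filter.1 hE).1 with h | ⟨Q', hQ', h⟩
        · exact Or.inl h
        · exact Or.inr ⟨Q', Finset.mem_insert_of_mem hQ', h⟩
    · rw [Finset.card_insert_of_notMem hQ]
      rw [← Finset.sum_filter_add_sum_filter_not H (fun E => (E ∩ D).Nonempty)] at e3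
      refine le_trans ?_ e3
      calc _ ≤ (c + ∑ E ∈ H.filter fun E => ¬(E ∩ D).Nonempty, min (α E) c)
            + ((G.card : ℝ≥0∞) + 1) * c := by
            push_cast
            gcongr
            exact (sum_insert_le _ _ _).trans (by gcongr; exact min_le_right _ _)
        _ = (c + c + ∑ E ∈ H.filter fun E => ¬(E ∩ D).Nonempty, min (α E) c) + G.card * c := by
            ring
        _ ≤ _ := by gcongr

end general

theorem rQ_pos (Q : ℤ × (Fin 3 → ℤ)) : 0 < rQ Q := Real.exp_pos _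

theorem zQ_apply (Q : ℤ × (Fin 3 → ℤ)) (i : Fin 3) : zQ Q i = rQ Q * Q.2 i := by
  fin_cases i <;> simp [zQ]

theorem le_abs_of_cast {m : ℕ} {a b : ℤ} (h : (a : ZMod m) = b) (hne : a ≠ b) :
    (m : ℤ) ≤ |a - b| :=
  Int.le_abs_of_dvd (sub_ne_zero.2 hne) ((ZMod.intCast_eq_intCast_iff_dvd_sub b a m).1 h.symm)

/-- the packing lemma -/
theorem pack : PackStmt := by
  classical
  intro ε κ L hε hκ hL
  obtain ⟨m, hm⟩ := exists_nat_gt ((L + 2 * κ) / κ)
  obtain ⟨p, hp⟩ := exists_nat_gt (2 * L + 2 * κ)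
  have hm0 : 0 < m := by
    have : (0 : ℝ) < m := lt_trans (by positivity) hm
    exact_mod_cast this
  have hp0 : 0 < p := by
    have : (0 : ℝ) < p := lt_trans (by positivity) hp
    exact_mod_cast this
  have : NeZero m := ⟨hm0.ne'⟩
  have : NeZero p := ⟨hp0.ne'⟩
  set c : ℝ≥0 := (ε / 2).toNNReal with hc
  have hc0 : c ≠ 0 := by
    rw [hc, Ne, Real.toNNReal_eq_zero, not_le]; positivity
  have hcc : (c : ℝ≥0∞) + c = ENNReal.ofReal ε := by
    change ENNReal.ofReal (ε / 2) + ENNReal.ofReal (ε / 2) = _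
    rw [← ENNReal.ofReal_add (by positivity) (by positivity), add_halves]
  refine ⟨Fintype.card (ZMod m × (Fin 3 → ZMod p)) * c⁻¹, fun α F B hB hFB hF => ?_⟩
  let cl : ℤ × (Fin 3 → ℤ) → ZMod m × (Fin 3 → ZMod p) := fun Q => (Q.1, fun i => Q.2 i)
  have key : ∀ k, ((F.filter fun Q => cl Q = k).card : ℝ≥0∞) ≤ (c⁻¹ : ℝ≥0) * α B := by
    intro k
    set G := F.filter fun Q => cl Q = k with hG
    obtain ⟨j₀, hj₀⟩ := (G.finite_toSet.image Prod.fst).bddBelow
    have hη : 0 < κ * Real.exp j₀ := by positivity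
    have hb : Bornology.IsBounded (⋃ Q ∈ G, ball (zQ Q) (L * rQ Q)) :=
      (Bornology.isBounded_biUnion_finset G).2 fun _ _ => isBounded_ball
    obtain ⟨t, ht, hcov⟩ := Metric.totallyBounded_iff.1
      (hb.isCompact_closure.totallyBounded.subset subset_closure) _ hη
    obtain ⟨H₀, h1, h2, h3⟩ := exists_cover α hB (κ * Real.exp j₀) ht.toFinset
    obtain ⟨H, -, -, h4⟩ := merge α Prod.fst zQ rQ (L := L) (κ := κ) (c := c) (a := α B) H₀ h1 h2
      ((Finset.sum_le_sum fun E _ => min_le_left _ _).trans (h3.trans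
        (measure_mono inter_subset_left))) G
      (fun Q hQ => subset_inter (hFB Q (Finset.mem_filter.1 hQ).1) (by
        refine Subset.trans (subset_biUnion_of_mem (u := fun Q => ball (zQ Q) (L * rQ Q))
          (Finset.mem_coe.2 hQ)) (hcov.trans ?_)
        simp))
      (fun Q hQ => mul_le_mul_of_nonneg_left (Real.exp_le_exp.2
        (Int.cast_le.2 (hj₀ ⟨Q, hQ, rfl⟩))) hκ.le)
      (fun Q hQ Q' hQ' hne hle => by
        have e := (Finset.mem_filter.1 hQ).2.trans (Finset.mem_filter.1 hQ').2.symm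
        by_cases hj : Q.1 = Q'.1
        · right
          have hr : rQ Q' = rQ Q := by simp [rQ, hj]
          obtain ⟨i, hi⟩ : ∃ i, Q.2 i ≠ Q'.2 i := by
            by_contra! h
            exact hne (Prod.ext hj (funext h))
          have e1 := le_abs_of_cast (congrFun (congrArg Prod.snd e) i) hi
          have e2 : (p : ℝ) ≤ |(Q.2 i : ℝ) - Q'.2 i| := by exact_mod_cast e1
          have e3 := PiLp.norm_apply_le (zQ Q - zQ Q') i
          rw [PiLp.sub_apply, zQ_apply, zQ_apply, hr, ← mul_sub, Real.norm_eq_abs, abs_mul,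
            abs_of_pos (rQ_pos Q)] at e3
          rw [dist_eq_norm, hr]
          nlinarith [rQ_pos Q]
        · left
          have e1 := le_abs_of_cast (congrArg Prod.fst e) hj
          rw [abs_sub_comm, abs_of_nonneg (sub_nonneg.2 hle)] at e1
          have e2 : (m : ℝ) + Q.1 ≤ Q'.1 := by exact_mod_cast le_sub_iff_add_le.1 e1
          have e3 : Real.exp m * rQ Q ≤ rQ Q' := by
            rw [rQ, ← Real.exp_add]; exact Real.exp_le_exp.2 e2
          have e4 : L + 2 * κ ≤ κ * Real.exp m := by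
            have := Real.add_one_le_exp (m : ℝ)
            rw [div_lt_iff₀ hκ] at hm
            nlinarith
          nlinarith [rQ_pos Q])
      (fun Q hQ z' => hcc ▸ (hF Q (Finset.mem_filter.1 hQ).1 z').le)
    have h5 : (G.card : ℝ≥0∞) * c ≤ α B := le_add_self.trans h4
    calc (G.card : ℝ≥0∞) = (c⁻¹ : ℝ≥0) * (G.card * c) := by
          rw [mul_comm (G.card : ℝ≥0∞), ← mul_assoc, ← ENNReal.coe_mul, inv_mul_cancel₀ hc0]
          simp
      _ ≤ _ := by gcongr
  rw [Finset.card_eq_sum_card_fiberwise (f := cl) (t := Finset.univ) fun _ _ => Finset.mem_univ _]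
  push_cast
  refine (Finset.sum_le_card_nsmul _ _ _ fun k _ => key k).trans (le_of_eq ?_)
  rw [nsmul_eq_mul, Finset.card_univ, mul_assoc]

end Vale.Agent.P218UP
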