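import Vale.Agent.P218UP.Osc
import Vale.Agent.P218UP.Pack
import Vale.Agent.P218UF.FL

/-! The loud lattice points in a cell. -/

open MeasureTheory Set Filter Topology Metric
open scoped ENNReal NNReal ContDiff RealInnerProductSpace

namespace Vale.Agent.P218UP

open P218UA P218UG P218UM
open Vale.Agent.P218.H63 (lap hessSq)

/-- the number of lattice points at which a surface is far from parallel planes -/
theorem static (A C : ℝ) {δ : ℝ} (hδ : 0 < δ) : ∃ r₀ > 0, ∃ N : ℝ≥0, ∀ W, IsSurf W →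
    AR (ar W) A → LGB W C → 0 ≤ C → ∀ (p : E3) (ρ : ℝ), 0 < ρ → ∀ F : Finset (ℤ × (Fin 3 → ℤ)),
    (∀ Q ∈ F, (zQ Q ∈ ball p (2 * ρ) ∧ rQ Q ≤ r₀ * ρ) ∧ δ < beta (ar W) (zQ Q) (rQ Q) 10) →
    (F.card : ℝ≥0∞) ≤ N * (1 + ∫⁻ x in ball p (6 * ρ), ENNReal.ofReal (lap W x ^ 2) ∂(ar W)) := by
  obtain ⟨ε, hε, κ, hκ, L, hL, h1⟩ := P218UF.flStmt A 10 δ hδ
  obtain ⟨N, h2⟩ := pack (ε / 2) κ L (by positivity) hκ hL
  refine ⟨L⁻¹, by positivity, N * C.toNNReal, fun W hW hA hG hC p ρ hρ F hF => ?_⟩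
  have := hA.locFin
  refine (h2 ((ar W).withDensity fun x => ENNReal.ofReal (hessSq W x)) F (ball p (3 * ρ))
    measurableSet_ball (fun Q hQ => ball_subset_ball' ?_) fun Q hQ z' => ?_).trans ?_
  · have h3 := mul_le_mul_of_nonneg_left (hF Q hQ).1.2 hL.le
    rw [mul_inv_cancel_left₀ hL.ne'] at h3
    linarith [mem_ball.1 (hF Q hQ).1.1]
  · rw [withDensity_apply _ (measurableSet_ball.diff measurableSet_ball)]
    refine lt_of_lt_of_le ((ENNReal.ofReal_lt_ofReal_iff_of_nonneg (by positivity)).2 ?_)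
      (ofReal_int_le _)
    by_contra h3
    exact (hF Q hQ).2.not_ge (beta_le_of_near hδ.le
      (h1 W hW hA _ z' _ (rQ_pos Q) (by linarith [not_lt.1 h3])))
  · have h3 := hG p (3 * ρ) (by positivity)
    rw [withDensity_apply _ measurableSet_ball, ← ofReal_integral_eq_lintegral_ofReal
      (((P218UF.continuous_hessSq' (surf_cd2 hW)).continuousOn.integrableOn_compact
        (isCompact_closedBall p (3 * ρ))).mono_set ball_subset_closedBall)
      (Eventually.of_forall fun x => (sq_nonneg _).trans (P218UF.norm_hs_sq_le (surf_cd2 hW) x)),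
      ENNReal.coe_mul, mul_assoc]
    refine mul_le_mul_right ((ENNReal.ofReal_le_ofReal h3).trans ?_) _
    rw [ENNReal.ofReal_mul hC, show 2 * (3 * ρ) = 6 * ρ by ring]
    exact mul_le_mul_right (ENNReal.ofReal_add_le.trans
      (add_le_add ENNReal.ofReal_one.le (ofReal_int_le _))) _

theorem win {t t₁ t₂ r ρ : ℝ} (ht : t ∈ Icc t₁ t₂) (hr : 0 < r) (h : r ≤ ρ) :
    Icc (t - r ^ 2) t ⊆ Icc (t₁ - ρ ^ 2) t₂ :=
  Icc_subset_Icc (by nlinarith [ht.1]) ht.2

/-- the total measure of the loud times whose window lies in `B` -/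
theorem cnt (hC : Calc) (A C : ℝ) {δ : ℝ} (hδ : 0 < δ) : ∃ r₀ > 0, ∃ N : ℝ≥0, ∀ w I,
    IsGood w I A C → ∀ (p : E3) (ρ t₁ t₂ : ℝ), 0 < ρ → Icc (t₁ - ρ ^ 2) t₂ ⊆ I →
    ∀ F : Finset (ℤ × (Fin 3 → ℤ)), (∀ Q ∈ F, zQ Q ∈ ball p (2 * ρ) ∧ rQ Q ≤ r₀ * ρ) →
    ∀ B, MeasurableSet B → ∑ Q ∈ F, volume {t ∈ Icc t₁ t₂ | δ ≤ bbar w (zQ Q) (rQ Q) t ∧
      Icc (t - rQ Q ^ 2) t ⊆ B} ≤ N * ∫⁻ t in Icc (t₁ - ρ ^ 2) t₂ ∩ B, (1 + hl w p (6 * ρ) t) := by
  classical
  obtain ⟨r₀, hr₀, N, h1⟩ := static A C (half_pos hδ)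
  refine ⟨min r₀ 1, by positivity, (A * 10 ^ 2 / (δ / 2)).toNNReal * N,
    fun w I h p ρ t₁ t₂ hρ hI F hF B hB => ?_⟩
  have hA : 0 ≤ A := by linarith [h.one_le]
  set S : ℤ × (Fin 3 → ℤ) → Set ℝ := fun Q =>
    I ∩ (fun t => beta (ar (w t)) (zQ Q) (rQ Q) 10) ⁻¹' Ioi (δ / 2)
  have hS : ∀ Q, MeasurableSet (S Q) := fun Q => ((continuousOn_beta hC h.toIsARFlow _ (rQ_pos Q)
    (by norm_num)).isOpen_inter_preimage h.isOpen isOpen_Ioi).measurableSet
  have hU := (measurableSet_Icc (a := t₁ - ρ ^ 2) (b := t₂)).inter hB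
  calc _ ≤ ∑ Q ∈ F, ENNReal.ofReal (A * 10 ^ 2 / (δ / 2))
          * ∫⁻ t in Icc (t₁ - ρ ^ 2) t₂ ∩ B, (S Q).indicator 1 t := by
        refine Finset.sum_le_sum fun Q hQ => ?_
        rw [lintegral_indicator_one (hS Q), Measure.restrict_apply (hS Q), div_eq_inv_mul,
          ENNReal.ofReal_mul (by positivity), ENNReal.ofReal_inv_of_pos (half_pos hδ), mul_assoc,
          ← ENNReal.mul_le_iff_le_inv (by simpa using hδ) ENNReal.ofReal_ne_top]
        refine loud_le ((hS Q).inter hU) (half_pos hδ).le (by positivity)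
          (b := fun t => beta (ar (w t)) (zQ Q) (rQ Q) 10) (r := rQ Q)
          (fun t ht => (by ring : 2 * (δ / 2) = δ).trans_le ht.2.1) fun t ht s hs => ?_
        have h2 := win ht.1 (rQ_pos Q) ((hF Q hQ).2.trans
          (mul_le_of_le_one_left hρ.le (min_le_right _ _))) hs
        exact ⟨beta_le (h.ratio s (hI h2)) hA (rQ_pos Q) (by norm_num),
          fun h3 => ⟨⟨hI h2, h3⟩, h2, ht.2.2 hs⟩⟩
    _ ≤ _ := by
        rw [← Finset.mul_sum, ← lintegral_finsetSum _ fun Q _ => measurable_one.indicator (hS Q),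
          ENNReal.coe_mul, mul_assoc, ← lintegral_const_mul' _ _ ENNReal.coe_ne_top]
        refine mul_le_mul_right (setLIntegral_mono' hU fun t ht => ?_) _
        have ht' := hI ht.1
        refine le_trans (le_of_eq ?_) (h1 (w t) (flow_slice h.toIsFlow ht') (h.ratio t ht')
          (h.lgb t ht') (by linarith [h.one_le']) p ρ hρ (F.filter fun Q => t ∈ S Q) fun Q hQ => ?_)
        · rw [Finset.card_filter]
          simp [indicator]
        · rw [Finset.mem_filter] at hQ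
          exact ⟨⟨(hF Q hQ.1).1, (hF Q hQ.1).2.trans
            (mul_le_mul_of_nonneg_right (min_le_left _ _) hρ.le)⟩, hQ.2.2⟩

theorem count (hC : Calc) (hM : Mono) (A C δ : ℝ) (hδ : 0 < δ) : ∃ r₀ > 0, ∃ N : ℝ≥0, ∀ w I,
    IsGood w I A C → ∀ (p : E3) (ρ t₁ t₂ : ℝ), 0 < ρ → t₂ ≤ t₁ + ρ ^ 2 → Icc (t₁ - ρ ^ 2) t₂ ⊆ I →
    ∀ F : Finset (ℤ × (Fin 3 → ℤ)), (∀ Q ∈ F, zQ Q ∈ ball p (2 * ρ) ∧ rQ Q ≤ r₀ * ρ) →
    ∑ Q ∈ F, volume {t ∈ Icc t₁ t₂ | δ ≤ bbar w (zQ Q) (rQ Q) t}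
      ≤ N * ENNReal.ofReal (ρ ^ 2) := by
  obtain ⟨r₀, hr₀, N, h1⟩ := cnt hC A C hδ
  obtain ⟨K, hK, h2⟩ := hl_time hC hM
  refine ⟨r₀, hr₀, N * (2 + K * A * 38).toNNReal, fun w I h p ρ t₁ t₂ hρ ht hI F hF => ?_⟩
  have hA : 0 ≤ A := by linarith [h.one_le]
  have h3 := h1 w I h p ρ t₁ t₂ hρ hI F hF univ MeasurableSet.univ
  simp only [subset_univ, and_true, inter_univ] at h3
  refine h3.trans ?_
  rcases lt_or_ge t₂ (t₁ - ρ ^ 2) with h4 | h4
  · simp [Icc_eq_empty_of_lt h4]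
  rw [ENNReal.coe_mul, mul_assoc, lintegral_add_left measurable_const, setLIntegral_one,
    Real.volume_Icc]
  refine mul_le_mul_right ((add_le_add le_rfl
    (h2 w I A h.toIsARFlow p _ _ _ (by positivity) h4 hI)).trans ?_) _
  rw [← ENNReal.ofReal_add (by linarith) (by have := sub_nonneg.2 h4; positivity),
    ← ENNReal.ofReal, ← ENNReal.ofReal_mul (by positivity)]
  exact ENNReal.ofReal_le_ofReal (by
    nlinarith [mul_le_mul_of_nonneg_left ht (mul_nonneg hK hA)])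

theorem cell (hC : Calc) (hM : Mono) : Cell := by
  obtain ⟨M, hM0, hd⟩ := bbar_deriv hC
  have crude : ∀ A w I, IsARFlow w I A → ∀ (z : E3) (r t : ℝ), 0 < r → Icc (t - r ^ 2) t ⊆ I →
      r ^ 2 * |deriv (bbar w z r) t| ≤ M * (A * 10 ^ 2) := fun A w I h z r t hr hI =>
    hd w I A h z r t _ hr hI fun s hs => by
      have hA : 0 ≤ A := by linarith [h.one_le]
      have h1 := beta_le (z := z) (L := 10) (h.ratio s (hI hs)) hA hr (by norm_num)
      have h2 := beta_le (z := z) (L := 10) (h.ratio t (hI ⟨hs.1.trans hs.2, le_rfl⟩)) hA hr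
        (by norm_num)
      rw [abs_le]
      constructor <;> linarith [beta_nonneg (ar (w s)) z r 10, beta_nonneg (ar (w t)) z r 10]
  refine ⟨fun w I A h z r t => bbar_smooth hC h z, fun A => ⟨_, crude A⟩, count hC hM,
    fun A C δ Λ ε hδ hΛ hε => ?_⟩
  obtain ⟨r₁, hr₁, N₁, h1⟩ := cnt hC A C hδ
  obtain ⟨r₂, hr₂, N₂, h2⟩ := count hC hM A C δ hδ
  have hε4 : 0 < ε / 4 := by positivity
  obtain ⟨η, hη, c1⟩ := exists_pos_mul_lt hε4 (M * N₂ * (100 * A))
  obtain ⟨x, hx, c2⟩ := exists_pos_mul_lt hε4 (M * N₂ * ((1 + η⁻¹) * (200 * A * Λ ^ 2)))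
  obtain ⟨e, he, c3⟩ := exists_pos_mul_lt hε4 (M * N₂ * ((1 + η⁻¹) * 2))
  obtain ⟨ε', hε', c4⟩ := exists_pos_mul_lt hε4
    (M * (A * 10 ^ 2) * N₁ * ((1 + 72 * A * Λ ^ 2) * (e⁻¹ * 4) + 2))
  refine ⟨min (min r₁ r₂) (min x (1 / 10)), by positivity, ε', hε',
    fun w I h p ρ t₁ t₂ hρ ht hI hD F hF => ?_⟩
  have hA : 0 ≤ A := by linarith [h.one_le]
  have hF' : ∀ Q ∈ F, ∀ y, min (min r₁ r₂) (min x (1 / 10)) ≤ y → rQ Q ≤ y * ρ := fun Q hQ y hy =>
    (hF Q hQ).2.trans (mul_le_mul_of_nonneg_right hy hρ.le)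
  obtain ⟨B, hB, b1, b2⟩ := exists_bad ((volume.restrict (Icc (t₁ - ρ ^ 2) t₂)).withDensity
    (dl w p (7 * ρ) (Λ / ρ))) e (ρ ^ 2)
  rw [withDensity_apply _ MeasurableSet.univ, Measure.restrict_univ] at b1
  replace b1 : volume B ≤ ENNReal.ofReal (e⁻¹ * 4 * (ε' * ρ ^ 2)) := by
    rw [mul_assoc, ENNReal.ofReal_mul (by positivity), ENNReal.ofReal_inv_of_pos he,
      ← ENNReal.mul_le_iff_le_inv (by simpa using he) ENNReal.ofReal_ne_top,
      ENNReal.ofReal_mul (by positivity), ENNReal.ofReal_ofNat]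
    exact b1.trans (mul_le_mul_right hD _)
  have b3 : ∫⁻ t in Icc (t₁ - ρ ^ 2) t₂ ∩ B, (1 + hl w p (6 * ρ) t)
      ≤ ENNReal.ofReal (((1 + 72 * A * Λ ^ 2) * (e⁻¹ * 4) + 2) * (ε' * ρ ^ 2)) := by
    refine (setLIntegral_mono' (measurableSet_Icc.inter hB) (g := fun t => ENNReal.ofReal
      (1 + 72 * A * Λ ^ 2) + ENNReal.ofReal 2 * dl w p (7 * ρ) (Λ / ρ) t) fun t ht => ?_).trans ?_
    · have a1 := lint_le_dl (a := Λ / ρ) h.toIsARFlow (hI ht.1) (by positivity : 0 < 6 * ρ)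
        (ball_subset_closedBall (x := p)) (ball_subset_ball (by linarith : 6 * ρ ≤ 7 * ρ))
        le_rfl zero_le_one
      rw [show (0 + 2 * 1 * (Λ / ρ) ^ 2) * (A * (6 * ρ) ^ 2) = 72 * A * Λ ^ 2 by field_simp; ring]
        at a1
      simp only [zero_add, one_mul, mul_one] at a1
      rw [ENNReal.ofReal_add zero_le_one (by positivity), ENNReal.ofReal_one, add_assoc]
      exact add_le_add le_rfl a1
    · rw [lintegral_add_left measurable_const, lintegral_const_mul' _ _ ENNReal.ofReal_ne_top,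
        setLIntegral_const]
      refine (add_le_add (mul_le_mul_right ((measure_mono inter_subset_right).trans b1) _)
        (mul_le_mul_right ((lintegral_mono_set inter_subset_left).trans hD) _)).trans (le_of_eq ?_)
      rw [← ENNReal.ofReal_mul (by positivity), ← ENNReal.ofReal_mul (by positivity),
        ← ENNReal.ofReal_add (by positivity) (by positivity)]
      congr 1
      ring
  refine (Finset.sum_le_sum (g := fun Q => ENNReal.ofReal (M * (100 * A * η + (1 + η⁻¹)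
    * (200 * A * (Λ ^ 2 * x) + 2 * e))) * volume {t ∈ Icc t₁ t₂ | δ ≤ bbar w (zQ Q) (rQ Q) t}
      + ENNReal.ofReal (M * (A * 10 ^ 2)) * volume {t ∈ Icc t₁ t₂ | δ ≤ bbar w (zQ Q) (rQ Q) t ∧
        Icc (t - rQ Q ^ 2) t ⊆ B}) fun Q hQ => ?_).trans ?_
  · have hr := rQ_pos Q
    have a1 := hF' Q hQ _ ((min_le_right _ _).trans (min_le_left _ _))
    have a2 := hF' Q hQ _ ((min_le_right _ _).trans (min_le_right _ _))
    have a3 : rQ Q ≤ ρ := by linarith
    refine lint_split (measurableSet_Icc (a := t₁) (b := t₂)) (sep_subset _ _)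
      ((measurable_deriv _).abs.const_mul _).ennreal_ofReal (fun t ht => ENNReal.ofReal_le_ofReal
        (crude A w I h.toIsARFlow _ _ t hr ((win ht hr a3).trans hI))) fun t ht a4 => ?_
    have a5 := win ht.1 hr a3
    refine ⟨ht.1, ht.2, b2 t _ (by positivity) (by gcongr) (not_lt.1 fun a6 => a4.not_ge ?_)⟩
    rw [withDensity_apply _ measurableSet_Icc, Measure.restrict_restrict measurableSet_Icc,
      inter_eq_left.2 a5] at a6
    refine ENNReal.ofReal_le_ofReal (hd w I A h.toIsARFlow _ _ t _ hr (a5.trans hI) fun s hs =>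
      (osc hC h.toIsARFlow hr (a5.trans hI) (closedBall_subset_ball' (by
        linarith [mem_ball.1 (hF Q hQ).1])) hη he.le a6.le hs).trans ?_)
    have a7 : (Λ / ρ * rQ Q) ^ 2 ≤ Λ ^ 2 * x := by
      rw [div_mul_eq_mul_div, div_pow, div_le_iff₀ (by positivity), mul_pow, mul_assoc]
      exact mul_le_mul_of_nonneg_left (by nlinarith) (sq_nonneg Λ)
    gcongr
  · rw [Finset.sum_add_distrib, ← Finset.mul_sum, ← Finset.mul_sum]
    refine (add_le_add (mul_le_mul_right (h2 w I h p ρ t₁ t₂ hρ ht hI F fun Q hQ => ⟨(hF Q hQ).1,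
      hF' Q hQ _ ((min_le_left _ _).trans (min_le_right _ _))⟩) _) (mul_le_mul_right
        ((h1 w I h p ρ t₁ t₂ hρ hI F (fun Q hQ => ⟨(hF Q hQ).1, hF' Q hQ _ ((min_le_left _ _).trans
          (min_le_left _ _))⟩) B hB).trans (mul_le_mul_right b3 _)) _)).trans ?_
    rw [← ENNReal.ofReal_coe_nnreal, ← ENNReal.ofReal_coe_nnreal,
      ← ENNReal.ofReal_mul (by positivity), ← ENNReal.ofReal_mul (by positivity),
      ← ENNReal.ofReal_mul (by positivity), ← ENNReal.ofReal_mul (by positivity),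
      ← ENNReal.ofReal_add (by positivity) (by positivity)]
    refine ENNReal.ofReal_le_ofReal ?_
    nlinarith [mul_le_mul_of_nonneg_right (add_le_add (add_le_add c1.le c2.le)
      (add_le_add c3.le c4.le)) (sq_nonneg ρ)]

end Vale.Agent.P218UP
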