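import Vale.Agent.P218UP.Avg
import Mathlib.MeasureTheory.Integral.IntervalIntegral.ContDiff

/-! Space-time integrals of the mean curvature, and the oscillation of `beta` in a window. -/

open MeasureTheory Set Filter Topology Metric
open scoped ENNReal NNReal ContDiff RealInnerProductSpace

namespace Vale.Agent.P218UP

open P218UA P218UG P218UM
open Vale.Agent.P218.H63 (lap hessSq)

variable {w : ℝ → E3 → ℝ} {I : Set ℝ} {A : ℝ}

/-- the integral of `H²` over a ball -/
noncomputable def hl (w : ℝ → E3 → ℝ) (p : E3) (R t : ℝ) : ℝ≥0∞ :=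
  ∫⁻ x in ball p R, ENNReal.ofReal (lap (w t) x ^ 2) ∂(ar (w t))

/-- the integral of `(|H| - a)₊²` over a ball -/
noncomputable def dl (w : ℝ → E3 → ℝ) (p : E3) (R a t : ℝ) : ℝ≥0∞ :=
  ∫⁻ x in ball p R, ENNReal.ofReal (max (|lap (w t) x| - a) 0 ^ 2) ∂(ar (w t))

theorem cont_lap (h : IsFlow w I) (S : Set E3) :
    ContinuousOn (fun q : ℝ × E3 => lap (w q.1) q.2) (I ×ˢ S) := fun q hq =>
  (flow_lap h hq.1 q.2).continuousAt.continuousWithinAt

theorem hl_meas (hC : Calc) (h : IsFlow w I) (p : E3) (R : ℝ) :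
    AEMeasurable (hl w p R) (volume.restrict I) := by
  classical
  have hm : Measurable ((I ×ˢ ball p R).piecewise
      (fun q : ℝ × E3 => ENNReal.ofReal (lap (w q.1) q.2 ^ 2)) fun _ => 0) :=
    ContinuousOn.measurable_piecewise (ENNReal.continuous_ofReal.comp_continuousOn
      ((cont_lap h _).pow 2)) continuousOn_const (h.isOpen.measurableSet.prod measurableSet_ball)
  refine (hC.stm_meas w I h _ hm).congr ?_
  filter_upwards [ae_restrict_mem h.isOpen.measurableSet] with t ht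
  rw [hl, ← lintegral_indicator measurableSet_ball]
  refine lintegral_congr fun x => ?_
  by_cases hx : x ∈ ball p R <;> simp [piecewise, ht, hx, -mem_ball]

theorem lint_ball_le {μ : Measure E3} (h : AR μ A) {z : E3} {r : ℝ} (hr : 0 < r) {S : Set E3}
    (hS : S ⊆ closedBall z r) {c : ℝ} (hc : 0 ≤ c) :
    ∫⁻ _ in S, ENNReal.ofReal c ∂μ ≤ ENNReal.ofReal (c * (A * r ^ 2)) := by
  rw [setLIntegral_const, ENNReal.ofReal_mul hc]
  exact mul_le_mul_right ((measure_mono hS).trans (h z r hr)) _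

theorem hl_time (hC : Calc) (hM : Mono) : ∃ C : ℝ, 0 ≤ C ∧ ∀ w I A, IsARFlow w I A →
    ∀ (p : E3) (R t₁ t₂ : ℝ), 0 < R → t₁ ≤ t₂ → Icc t₁ t₂ ⊆ I →
      ∫⁻ t in Icc t₁ t₂, hl w p R t ≤ ENNReal.ofReal (C * A * (R ^ 2 + (t₂ - t₁))) := by
  obtain ⟨C, h0⟩ := hM.hsq
  refine ⟨|C|, abs_nonneg _, fun w I A h p R t₁ t₂ hR h12 hI => ?_⟩
  obtain ⟨B, hB⟩ := (isCompact_Icc.prod (isCompact_closedBall p R)).exists_bound_of_continuousOn
    (((cont_lap h.toIsFlow _).mono (prod_mono hI Subset.rfl)).pow 2)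
  have hfin : ∫⁻ t in Icc t₁ t₂, hl w p R t < ⊤ := by
    refine (setLIntegral_mono' measurableSet_Icc fun t ht => (setLIntegral_mono' measurableSet_ball
      fun x hx => ENNReal.ofReal_le_ofReal ((le_abs_self _).trans ((hB (t, x)
        ⟨ht, ball_subset_closedBall hx⟩).trans (le_abs_self B)))).trans (lint_ball_le
          (h.ratio t (hI ht)) hR ball_subset_closedBall (abs_nonneg B))).trans_lt ?_
    rw [setLIntegral_const]
    exact ENNReal.mul_lt_top ENNReal.ofReal_lt_top measure_Icc_lt_top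
  have hm := (hl_meas hC h.toIsFlow p R).mono_set hI
  have h3 := h0 w I A h p R t₁ t₂ hR (hI (left_mem_Icc.2 h12)) (hI (right_mem_Icc.2 h12)) h12
  rw [intervalIntegral.integral_of_le h12, ← integral_Icc_eq_integral_Ioc,
    setIntegral_congr_fun (g := fun t => (hl w p R t).toReal) measurableSet_Icc fun t ht =>
      integral_eq_lintegral_of_nonneg_ae (Eventually.of_forall fun _ => sq_nonneg _)
        ((surf_lap_cont (flow_slice h.toIsFlow (hI ht))).pow 2).aestronglyMeasurable,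
    integral_toReal hm (ae_lt_top' hm hfin.ne)] at h3
  rw [← ENNReal.ofReal_toReal hfin.ne]
  refine ENNReal.ofReal_le_ofReal (h3.trans ?_)
  have hA := h.one_le
  have : 0 ≤ R ^ 2 + (t₂ - t₁) := by nlinarith
  gcongr
  exact le_abs_self C

theorem sq_le_add (H a : ℝ) : H ^ 2 ≤ 2 * a ^ 2 + 2 * max (|H| - a) 0 ^ 2 := by
  have h1 := le_max_left (|H| - a) 0
  generalize max (|H| - a) 0 = d at h1
  rw [← sq_abs H]
  nlinarith [abs_nonneg H, sq_nonneg (a - d)]

/-- an integral over a small ball whose integrand is at most `c + K H²` -/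
theorem lint_le_dl (h : IsARFlow w I A) {t : ℝ} (ht : t ∈ I) {z p : E3} {r R a c K : ℝ} (hr : 0 < r)
    {S : Set E3} (hS : S ⊆ closedBall z r) (hS' : S ⊆ ball p R) (hc : 0 ≤ c) (hK : 0 ≤ K) :
    ∫⁻ x in S, ENNReal.ofReal (c + K * lap (w t) x ^ 2) ∂(ar (w t))
      ≤ ENNReal.ofReal ((c + 2 * K * a ^ 2) * (A * r ^ 2))
        + ENNReal.ofReal (2 * K) * dl w p R a t := by
  refine le_trans ?_ (add_le_add (lint_ball_le (h.ratio t ht) hr hS (by positivity))
    (mul_le_mul_right (lintegral_mono_set hS') _))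
  rw [← lintegral_const_mul' _ _ ENNReal.ofReal_ne_top, ← lintegral_add_left measurable_const]
  refine lintegral_mono fun x => ?_
  rw [← ENNReal.ofReal_mul (by positivity), ← ENNReal.ofReal_add (by positivity) (by positivity)]
  exact ENNReal.ofReal_le_ofReal (by
    nlinarith [mul_le_mul_of_nonneg_left (sq_le_add (lap (w t) x) a) hK])

theorem norm_grad_test {L r : ℝ} {φ : E3 → ℝ} (hφ : IsTest L φ) (hr : 0 < r) (z y : E3) :
    ‖gradient (fun y : E3 => φ (r⁻¹ • (y - z))) y‖ ≤ r⁻¹ := by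
  have b1 : HasFDerivAt (fun y : E3 => r⁻¹ • (y - z))
      (r⁻¹ • ContinuousLinearMap.id ℝ E3) y := ((hasFDerivAt_id y).sub_const z).const_smul r⁻¹
  have b2 := (hφ.smooth.differentiable (by norm_num) _).hasFDerivAt.comp y b1
  rw [norm_grad, show (fun y : E3 => φ (r⁻¹ • (y - z))) = φ ∘ fun y => r⁻¹ • (y - z) from rfl,
    b2.fderiv]
  refine (ContinuousLinearMap.opNorm_comp_le _ _).trans ?_
  rw [norm_smul, ContinuousLinearMap.norm_id, norm_inv, Real.norm_of_nonneg hr.le, mul_one]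
  exact mul_le_of_le_one_left (by positivity) (hφ.deriv_le _)

/-- the oscillation of `beta` in a window in which `H` is almost bounded -/
theorem osc (hC : Calc) (h : IsARFlow w I A) {z p : E3} {r t R a η e : ℝ} (hr : 0 < r)
    (hI : Icc (t - r ^ 2) t ⊆ I) (hz : closedBall z (10 * r) ⊆ ball p R) (hη : 0 < η) (he : 0 ≤ e)
    (hd : ∫⁻ s in Icc (t - r ^ 2) t, dl w p R a s ≤ ENNReal.ofReal (e * r ^ 2)) {s : ℝ}
    (hs : s ∈ Icc (t - r ^ 2) t) : |beta (ar (w s)) z r 10 - beta (ar (w t)) z r 10|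
      ≤ 100 * A * η + (1 + η⁻¹) * (200 * A * (a * r) ^ 2 + 2 * e) := by
  have hA : 0 ≤ A := by linarith [h.one_le]
  have key : ∀ φ, IsTest 10 φ → |(∫ y, φ (r⁻¹ • (y - z)) ∂(ar (w t))) / r ^ 2
      - (∫ y, φ (r⁻¹ • (y - z)) ∂(ar (w s))) / r ^ 2|
      ≤ 100 * A * η + (1 + η⁻¹) * (200 * A * (a * r) ^ 2 + 2 * e) := fun φ hφ => by
    have hc : ContDiff ℝ 1 fun y : E3 => φ (r⁻¹ • (y - z)) := hφ.smooth.comp (by fun_prop)
    have h1 := hC.param w I h.toIsFlow 1 ℝ id (fun _ y => φ (r⁻¹ • (y - z))) I h.isOpen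
      contDiffOn_id (mapsTo_id I) (hc.comp contDiff_snd).contDiffOn _
      (isCompact_closedBall z (10 * r)) fun _ _ => test_zero hφ hr
    have h2 := enorm_sub_le_lintegral_deriv_of_contDiffOn_Icc
      (h1.mono ((Icc_subset_Icc_left hs.1).trans hI)) hs.2
    have h3 : ∀ τ ∈ Icc (t - r ^ 2) t, ‖deriv (fun a => ∫ y, φ (r⁻¹ • (y - z)) ∂(ar (w a))) τ‖ₑ
        ≤ ENNReal.ofReal ((η * r⁻¹ ^ 2 + 2 * (1 + η⁻¹) * a ^ 2) * (A * (10 * r) ^ 2))
          + ENNReal.ofReal (2 * (1 + η⁻¹)) * dl w p R a τ := fun τ hτ => by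
      have hS := flow_slice h.toIsFlow (hI hτ)
      rw [(hasDerivAt_test hC h.toIsFlow hc (isCompact_closedBall z (10 * r)) (test_zero hφ hr)
        (hI hτ)).deriv, ← setIntegral_eq_integral_of_forall_compl_eq_zero
          (s := closedBall z (10 * r)) fun y hy => by
          simp [test_zero hφ hr y hy, grad_zero_of_notMem isClosed_closedBall (test_zero hφ hr) hy]]
      refine (enorm_integral_le_lintegral_enorm _).trans (le_trans (lintegral_mono_ae ?_)
        (lint_le_dl h (hI hτ) (by positivity) Subset.rfl hz (by positivity) (by positivity)))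
      filter_upwards [ae_restrict_of_ae (ae_ar hS)] with y hy
      rw [Real.enorm_eq_ofReal_abs]
      refine ENNReal.ofReal_le_ofReal ((abs_sub _ _).trans ?_)
      have a3 := abs_real_inner_le_norm (gradient (fun y : E3 => φ (r⁻¹ • (y - z))) y)
        (gradient (w τ) y)
      rw [surf_unit hS hy, mul_one] at a3
      have a4 := mul_le_mul_of_nonneg_left (a3.trans (norm_grad_test hφ hr z y))
        (abs_nonneg (lap (w τ) y))
      have a5 := mul_le_mul_of_nonneg_left (hφ.le_one (r⁻¹ • (y - z))) (sq_nonneg (lap (w τ) y))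
      have a6 := mul_nonneg (inv_pos.2 hη).le (sq_nonneg (η * r⁻¹ - |lap (w τ) y|))
      have a7 : η⁻¹ * (η * r⁻¹ - |lap (w τ) y|) ^ 2
          = η * r⁻¹ ^ 2 - 2 * (|lap (w τ) y| * r⁻¹) + η⁻¹ * lap (w τ) y ^ 2 := by
        rw [← sq_abs (lap (w τ) y)]
        field_simp
        ring
      have a8 : 0 ≤ |lap (w τ) y| * r⁻¹ := by positivity
      rw [abs_neg, abs_mul, abs_mul, abs_of_nonneg (sq_nonneg (lap (w τ) y))]
      linarith
    have h4 := h2.trans ((lintegral_mono_set (Icc_subset_Icc_left hs.1)).trans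
      (setLIntegral_mono' measurableSet_Icc h3))
    rw [lintegral_add_left measurable_const, lintegral_const_mul' _ _ ENNReal.ofReal_ne_top,
      setLIntegral_const, Real.volume_Icc, Real.enorm_eq_ofReal_abs] at h4
    replace h4 := h4.trans (add_le_add le_rfl (mul_le_mul_right hd _))
    rw [← ENNReal.ofReal_mul (by positivity), ← ENNReal.ofReal_mul (by positivity),
      ← ENNReal.ofReal_add (by rw [sub_sub_cancel]; positivity) (by positivity),
      ENNReal.ofReal_le_ofReal_iff (by rw [sub_sub_cancel]; positivity)] at h4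
    rw [← sub_div, abs_div, abs_of_pos (by positivity : 0 < r ^ 2), div_le_iff₀ (by positivity)]
    refine h4.trans (le_of_eq ?_)
    field_simp
    ring
  have h5 := beta_le_add (h.ratio s (hI hs)) hA hr (by norm_num) (by positivity) key
  have h6 := beta_le_add (h.ratio t (hI ⟨hs.1.trans hs.2, le_rfl⟩)) hA hr (by norm_num)
    (by positivity) fun φ hφ => (abs_sub_comm _ _).trans_le (key φ hφ)
  rw [abs_le]
  constructor <;> linarith

end Vale.Agent.P218UP
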